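import Mathlib

namespace Vale.Agent.Lib.Helper4.P262

open Finset

/-- evaluation of a finite sum in an `L2` product, blockwise. -/
theorem pilp_sum_apply {ι : Type*} [Fintype ι] {β : ι → Type*}
    [∀ i, SeminormedAddCommGroup (β i)] (s : Finset ℕ) (f : ℕ → PiLp 2 β) (k : ι) :
    (∑ i ∈ s, f i) k = ∑ i ∈ s, f i k := by
  classical
  induction s using Finset.induction_on with
  | empty => simp
  | insert a s ha ih => rw [Finset.sum_insert ha, Finset.sum_insert ha, PiLp.add_apply, ih]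

/-- the time-lifted vectors: block `k` of the `i`-th lifted vector is `sqrt (ν k) • v i` when
`i < k` and zero otherwise. -/
noncomputable def lift (d N : ℕ) (v : ℕ → EuclideanSpace ℝ (Fin d)) (ν : ℕ → ℝ) (i : ℕ) :
    PiLp 2 (fun _ : Fin (N + 1) => EuclideanSpace ℝ (Fin d)) :=
  WithLp.toLp 2 (fun k => (Real.sqrt (ν k) * (if i < (k : ℕ) then 1 else 0)) • v i)

theorem lift_apply (d N : ℕ) (v : ℕ → EuclideanSpace ℝ (Fin d)) (ν : ℕ → ℝ) (i : ℕ)
    (k : Fin (N + 1)) :
    lift d N v ν i k = (Real.sqrt (ν k) * (if i < (k : ℕ) then 1 else 0)) • v i := rfl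

/-- squared norm of a signed sum of lifted vectors. -/
theorem norm_sq_sum_lift (d N : ℕ) (v : ℕ → EuclideanSpace ℝ (Fin d)) (ν : ℕ → ℝ)
    (hν : ∀ k, 0 ≤ ν k) (eps : ℕ → ℝ) :
    ‖∑ i ∈ range N, eps i • lift d N v ν i‖ ^ 2 =
      ∑ k ∈ range (N + 1), ν k * ‖∑ i ∈ range k, eps i • v i‖ ^ 2 := by
  rw [PiLp.norm_sq_eq_of_L2]
  rw [← Fin.sum_univ_eq_sum_range (fun k => ν k * ‖∑ i ∈ range k, eps i • v i‖ ^ 2) (N + 1)]
  refine Finset.sum_congr rfl (fun k _ => ?_)
  have hk : (k : ℕ) ≤ N := Nat.lt_succ_iff.1 k.2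
  have hblock : (∑ i ∈ range N, eps i • lift d N v ν i) k =
      Real.sqrt (ν k) • ∑ i ∈ range k, eps i • v i := by
    rw [pilp_sum_apply]
    have hsub : range (k : ℕ) ⊆ range N := Finset.range_subset_range.2 hk
    rw [Finset.smul_sum, ← Finset.sum_subset hsub]
    · refine Finset.sum_congr rfl (fun i hi => ?_)
      have hik : i < (k : ℕ) := Finset.mem_range.1 hi
      rw [PiLp.smul_apply, lift_apply, if_pos hik, mul_one, smul_comm]
    · intro i _ hi
      have hik : ¬ i < (k : ℕ) := fun h => hi (Finset.mem_range.2 h)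
      rw [PiLp.smul_apply, lift_apply, if_neg hik, mul_zero, zero_smul, smul_zero]
  rw [hblock, norm_smul, mul_pow, Real.norm_of_nonneg (Real.sqrt_nonneg _),
    Real.sq_sqrt (hν k)]

/-- squared norm of a lifted vector minus a combination of later lifted vectors. -/
theorem norm_sq_lift_sub (d N : ℕ) (v : ℕ → EuclideanSpace ℝ (Fin d)) (ν : ℕ → ℝ)
    (hν : ∀ k, 0 ≤ ν k) (C : Finset ℕ) (c : ℕ → ℝ) (i : ℕ) :
    ‖lift d N v ν i - ∑ j ∈ C.filter (fun j => i < j), c j • lift d N v ν j‖ ^ 2 =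
      ∑ k ∈ range (N + 1), ν k *
        (if i < k then ‖v i - ∑ j ∈ C.filter (fun j => i < j ∧ j < k), c j • v j‖ ^ 2 else 0) := by
  rw [PiLp.norm_sq_eq_of_L2]
  rw [← Fin.sum_univ_eq_sum_range (fun k => ν k *
    (if i < k then ‖v i - ∑ j ∈ C.filter (fun j => i < j ∧ j < k), c j • v j‖ ^ 2 else 0)) (N + 1)]
  refine Finset.sum_congr rfl (fun k _ => ?_)
  have hblock : (lift d N v ν i - ∑ j ∈ C.filter (fun j => i < j), c j • lift d N v ν j) k =
      Real.sqrt (ν k) • (if i < (k : ℕ) then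
        (v i - ∑ j ∈ C.filter (fun j => i < j ∧ j < (k : ℕ)), c j • v j) else 0) := by
    rw [PiLp.sub_apply, pilp_sum_apply, lift_apply]
    have hfilter : C.filter (fun j => i < j ∧ j < (k : ℕ)) =
        (C.filter (fun j => i < j)).filter (fun j => j < (k : ℕ)) := by
      rw [Finset.filter_filter]
    have hsum : ∑ j ∈ C.filter (fun j => i < j), (c j • lift d N v ν j) k =
        Real.sqrt (ν k) • ∑ j ∈ C.filter (fun j => i < j ∧ j < (k : ℕ)), c j • v j := by
      rw [hfilter, Finset.smul_sum,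
        Finset.sum_filter (s := C.filter (fun j => i < j)) (p := fun j => j < (k : ℕ))]
      refine Finset.sum_congr rfl (fun j _ => ?_)
      rw [PiLp.smul_apply, lift_apply]
      by_cases hjk : j < (k : ℕ)
      · rw [if_pos hjk, if_pos hjk, mul_one, smul_comm]
      · rw [if_neg hjk, if_neg hjk, mul_zero, zero_smul, smul_zero]
    rw [hsum]
    by_cases hik : i < (k : ℕ)
    · rw [if_pos hik, if_pos hik, mul_one, smul_sub]
    · rw [if_neg hik, if_neg hik, mul_zero, zero_smul, smul_zero, zero_sub, neg_eq_zero]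
      have hempty : C.filter (fun j => i < j ∧ j < (k : ℕ)) = ∅ := by
        apply Finset.filter_false_of_mem
        intro j _ hj
        exact hik (hj.1.trans hj.2)
      rw [hempty, Finset.sum_empty, smul_zero]
  rw [hblock, norm_smul, mul_pow, Real.norm_of_nonneg (Real.sqrt_nonneg _),
    Real.sq_sqrt (hν k)]
  by_cases hik : i < (k : ℕ)
  · rw [if_pos hik, if_pos hik]
  · rw [if_neg hik, if_neg hik, norm_zero]
    norm_num

/-- assembly: from the rounding statement for the lifted vectors and the sequential projection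
bound, signs with weighted mean square prefix sums at most `d`. -/
theorem assemble (d N : ℕ) (v : ℕ → EuclideanSpace ℝ (Fin d)) (ν : ℕ → ℝ) (hν : ∀ k, 0 ≤ ν k)
    (hR : ∃ (eps : ℕ → ℝ) (C : Finset ℕ), (∀ i, eps i = 1 ∨ eps i = -1) ∧ C ⊆ range N ∧
      ∀ c : ℕ → ℕ → ℝ, ‖∑ i ∈ range N, eps i • lift d N v ν i‖ ^ 2 ≤
        ∑ k ∈ C, ‖lift d N v ν k -
          ∑ j ∈ C.filter (fun j => k < j), c k j • lift d N v ν j‖ ^ 2)
    (hS : ∀ C : Finset ℕ, ∃ c : ℕ → ℕ → ℝ, ∀ k : ℕ,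
      ∑ i ∈ C.filter (fun i => i < k),
        ‖v i - ∑ j ∈ C.filter (fun j => i < j ∧ j < k), c i j • v j‖ ^ 2 ≤ d) :
    ∃ eps : ℕ → ℝ, (∀ i, eps i = 1 ∨ eps i = -1) ∧
      ∑ k ∈ range (N + 1), ν k * ‖∑ i ∈ range k, eps i • v i‖ ^ 2 ≤
        d * ∑ k ∈ range (N + 1), ν k := by
  obtain ⟨eps, C, hsign, _, hbound⟩ := hR
  obtain ⟨c, hc⟩ := hS C
  refine ⟨eps, hsign, ?_⟩
  rw [← norm_sq_sum_lift d N v ν hν eps]
  refine (hbound c).trans ?_
  have h2 : ∀ i ∈ C, ‖lift d N v ν i -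
      ∑ j ∈ C.filter (fun j => i < j), c i j • lift d N v ν j‖ ^ 2 =
      ∑ k ∈ range (N + 1), ν k *
        (if i < k then ‖v i - ∑ j ∈ C.filter (fun j => i < j ∧ j < k), c i j • v j‖ ^ 2
          else 0) := fun i _ => norm_sq_lift_sub d N v ν hν C (c i) i
  rw [Finset.sum_congr rfl h2, Finset.sum_comm, Finset.mul_sum]
  refine Finset.sum_le_sum (fun k _ => ?_)
  rw [← Finset.mul_sum, mul_comm (d : ℝ)]
  refine mul_le_mul_of_nonneg_left ?_ (hν k)
  rw [← Finset.sum_filter]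
  exact hc k

end Vale.Agent.Lib.Helper4.P262
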