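import Mathlib

/-!
# A finite minimax lemma (for P262, library work for helper9)

If for every nonnegative weight vector `ν` on `Fin n` some `x : X` has weighted sum
`∑ k, ν k * f x k ≤ D * ∑ k, ν k`, then some probability distribution `p` on the finite
type `X` has `∑ x, p x * f x k ≤ D` for every `k` simultaneously.
Proof: Hahn–Banach separation of the compact convex image of the simplex from the closed
negative orthant.
-/

namespace Vale.Agent.Lib.Helper4.P262

open Finset

theorem minimax_finite {X : Type} [Fintype X] [Nonempty X] (n : ℕ) (f : X → Fin n → ℝ) (D : ℝ)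
    (h : ∀ ν : Fin n → ℝ, (∀ k, 0 ≤ ν k) → ∃ x, (∑ k, ν k * f x k) ≤ D * ∑ k, ν k) :
    ∃ p : X → ℝ, (∀ x, 0 ≤ p x) ∧ (∑ x, p x) = 1 ∧ ∀ k, (∑ x, p x * f x k) ≤ D := by
  classical
  let T : (X → ℝ) →ₗ[ℝ] (Fin n → ℝ) :=
    { toFun := fun p k => ∑ x, p x * (f x k - D)
      map_add' := by
        intro p q; funext k
        simp only [Pi.add_apply, add_mul, Finset.sum_add_distrib]
      map_smul' := by
        intro c p; funext k
        simp only [Pi.smul_apply, smul_eq_mul, RingHom.id_apply, Finset.mul_sum, mul_assoc] }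
  have hTapp : ∀ p k, T p k = ∑ x, p x * (f x k - D) := fun _ _ => rfl
  let K : Set (Fin n → ℝ) := T '' stdSimplex ℝ X
  let B : Set (Fin n → ℝ) := {y | ∀ k, y k ≤ 0}
  have hKc : Convex ℝ K := (convex_stdSimplex ℝ X).linear_image T
  have hKk : IsCompact K :=
    (isCompact_stdSimplex ℝ X).image (LinearMap.continuous_of_finiteDimensional T)
  have hBc : Convex ℝ B := by
    intro y hy z hz a b ha hb _ k
    have h1 := hy k
    have h2 := hz k
    simp only [Pi.add_apply, Pi.smul_apply, smul_eq_mul]
    nlinarith [mul_nonneg ha (neg_nonneg.mpr h1), mul_nonneg hb (neg_nonneg.mpr h2)]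
  have hBcl : IsClosed B := by
    have : B = ⋂ k, {y : Fin n → ℝ | y k ≤ 0} := by
      ext y; simp [B]
    rw [this]
    exact isClosed_iInter fun k => isClosed_le (continuous_apply k) continuous_const
  by_cases hdis : Disjoint K B
  · exfalso
    obtain ⟨g, s, t, hK, hst, hB⟩ :=
      geometric_hahn_banach_compact_closed hKc hKk hBc hBcl hdis
    have h0 : t < 0 := by
      have := hB 0 (by intro k; simp)
      simpa using this
    have hge : ∀ k, g (Pi.single k 1) ≤ 0 := by
      intro k
      by_contra hpos
      rw [not_le] at hpos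
      have hmem : ((t - 1) / g (Pi.single k 1)) • (Pi.single k (1:ℝ) : Fin n → ℝ) ∈ B := by
        intro j
        by_cases hj : j = k
        · subst hj
          simp only [Pi.smul_apply, Pi.single_eq_same, smul_eq_mul, mul_one]
          exact div_nonpos_of_nonpos_of_nonneg (by linarith) hpos.le
        · simp [Pi.single_eq_of_ne hj]
      have := hB _ hmem
      rw [map_smul, smul_eq_mul, div_mul_cancel₀ _ hpos.ne'] at this
      linarith
    obtain ⟨x, hx⟩ := h (fun k => - g (Pi.single k 1)) (fun k => by have := hge k; linarith)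
    have hmemK : T (Pi.single x 1) ∈ K := ⟨_, single_mem_stdSimplex ℝ x, rfl⟩
    have hT : T (Pi.single x 1) = fun k => f x k - D := by
      funext k
      rw [hTapp]
      simp [Pi.single_apply]
    have hg : ∀ y : Fin n → ℝ, g y = ∑ k, y k * g (Pi.single k 1) := by
      intro y
      have hy : y = ∑ k, y k • (Pi.single k (1:ℝ) : Fin n → ℝ) := by
        funext j
        simp [Finset.sum_apply, Pi.single_apply]
      conv_lhs => rw [hy]
      simp [map_sum]
    have hlt := hK _ hmemK
    rw [hT, hg] at hlt
    have hsum : ∑ k, (f x k - D) * g (Pi.single k 1)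
        = -((∑ k, (fun k => - g (Pi.single k 1)) k * f x k)
            - D * ∑ k, (fun k => - g (Pi.single k 1)) k) := by
      simp only [Finset.mul_sum, neg_mul, mul_neg, Finset.sum_neg_distrib, sub_mul,
        Finset.sum_sub_distrib]
      have : ∑ k, g (Pi.single k 1) * f x k = ∑ k, f x k * g (Pi.single k 1) :=
        Finset.sum_congr rfl fun k _ => mul_comm _ _
      rw [this]; ring
    rw [hsum] at hlt
    linarith
  · rw [Set.not_disjoint_iff] at hdis
    obtain ⟨y, ⟨p, hp, rfl⟩, hyB⟩ := hdis
    refine ⟨p, hp.1, hp.2, fun k => ?_⟩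
    have hk := hyB k
    have e : T p k = ∑ x, p x * f x k - D * ∑ x, p x := by
      rw [hTapp]
      simp only [mul_sub, Finset.sum_sub_distrib, Finset.mul_sum]
      congr 1
      exact Finset.sum_congr rfl fun x _ => mul_comm _ _
    rw [e, hp.2] at hk
    linarith

end Vale.Agent.Lib.Helper4.P262
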